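import Vale.Agent.Lib.P054.LatD.PinnedD

/-!
P054 (higher-dimensional distinct distances).  In every dimension `d ≥ 3` the conjectured bound `c_d n^(2/d)` holds, pinned at every point and
with a constant depending on `d` only, for all subsets of positive density of boxes in ARBITRARY lattices of `ℝ^d`:
if `b_1, ..., b_d` is any basis of `ℝ^d` and `P ⊆ {∑ z_i b_i : z_i ∈ {1,...,t}}` has `n ≥ 2`, `n ≥ δ t^d` points, then every point `p` of `P`
is at `≥ c_d δ^(2-2/d) n^(2/d)` distinct distances from the other points of `P`, and so `|Δ(P)| ≥ c_d δ^(2-2/d) n^(2/d)`.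
Equivalently: the statement holds for all images of dense subsets of the cubic grid under invertible affine maps, uniformly in the map.
-/

namespace Vale.Agent.Results.P054.AllLattices

open Vale.Agent.Lib.P054

open Classical in
theorem result : ∀ d : ℕ, 3 ≤ d → ∃ c : ℝ, 0 < c ∧
    ∀ (b : Fin d → EuclideanSpace ℝ (Fin d)), LinearIndependent ℝ b →
    ∀ (t : ℕ) (δ : ℝ) (P : Finset (EuclideanSpace ℝ (Fin d))), 0 < δ →
      (∀ q ∈ P, ∃ z : Fin d → ℕ, (∀ i, 1 ≤ z i ∧ z i ≤ t) ∧ q = ∑ i, (z i : ℝ) • b i) →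
      2 ≤ P.card → δ * (t : ℝ) ^ d ≤ (P.card : ℝ) →
      (∀ p ∈ P, c * δ ^ (2 - 2 / (d : ℝ)) * (P.card : ℝ) ^ (2 / (d : ℝ))
          ≤ (((P.erase p).image (fun q => dist p q)).card : ℝ)) ∧
      c * δ ^ (2 - 2 / (d : ℝ)) * (P.card : ℝ) ^ (2 / (d : ℝ))
          ≤ ((P.offDiag.image (fun pq => dist pq.1 pq.2)).card : ℝ) := by
  intro d hd
  obtain ⟨m, rfl⟩ : ∃ m, d = m + 3 := ⟨d - 3, by omega⟩
  set C : ℝ := 1100 * 16 * 9 ^ m with hC
  have hCpos : 0 < C := by positivity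
  refine ⟨1 / (4 * C), by positivity, ?_⟩
  intro b hb t δ P hδ hP hcard hdens
  have hu : LinearIndependent ℝ ![b (Fin.natAdd m 0), b (Fin.natAdd m 1), b (Fin.natAdd m 2)] := by
    have h1 := hb.comp (Fin.natAdd m : Fin 3 → Fin (m + 3)) (Fin.natAdd_injective 3 m)
    have h2 : ![b (Fin.natAdd m 0), b (Fin.natAdd m 1), b (Fin.natAdd m 2)]
        = b ∘ (Fin.natAdd m : Fin 3 → Fin (m + 3)) := by
      funext i
      fin_cases i <;> rfl
    rw [h2]
    exact h1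
  have hP' : ∀ q ∈ P, ∃ a : (ℤ × ℤ × ℤ) × (Fin m → ℤ),
      (1 ≤ a.1.1 ∧ a.1.1 ≤ t) ∧ (1 ≤ a.1.2.1 ∧ a.1.2.1 ≤ t) ∧ (1 ≤ a.1.2.2 ∧ a.1.2.2 ≤ t) ∧
      (∀ i, 1 ≤ a.2 i ∧ a.2 i ≤ t) ∧
      q = latD (b (Fin.natAdd m 0)) (b (Fin.natAdd m 1)) (b (Fin.natAdd m 2))
        (fun j : Fin m => b (Fin.castAdd 3 j)) a := by
    intro q hq
    obtain ⟨z, hz, rfl⟩ := hP q hq
    have hz' : ∀ i, (1 : ℤ) ≤ (z i : ℤ) ∧ (z i : ℤ) ≤ (t : ℤ) := fun i =>
      ⟨by exact_mod_cast (hz i).1, by exact_mod_cast (hz i).2⟩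
    refine ⟨(((z (Fin.natAdd m 0) : ℤ), (z (Fin.natAdd m 1) : ℤ), (z (Fin.natAdd m 2) : ℤ)),
      fun j : Fin m => (z (Fin.castAdd 3 j) : ℤ)), hz' _, hz' _, hz' _, fun i => hz' _, ?_⟩
    rw [Fin.sum_univ_add, Fin.sum_univ_three]
    unfold latD lat
    simp only [Int.cast_natCast]
    exact add_comm _ _
  have hpin : ∀ p ∈ P, 1 / (4 * C) * δ ^ (2 - 2 / ((m + 3 : ℕ) : ℝ)) * (P.card : ℝ) ^ (2 / ((m + 3 : ℕ) : ℝ))
          ≤ (((P.erase p).image (fun q => dist p q)).card : ℝ) := by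
    intro p hp
    have ht : 1 ≤ t := by
      obtain ⟨z, hz, -⟩ := hP p hp
      have := hz 0
      omega
    have ht' : (1 : ℝ) ≤ t := by exact_mod_cast ht
    have h1 := pinned_D (b (Fin.natAdd m 0)) (b (Fin.natAdd m 1)) (b (Fin.natAdd m 2))
      (fun j : Fin m => b (Fin.castAdd 3 j)) hu t ht P hP' p hp
    have key : ∀ (i1 : DecidableEq (EuclideanSpace ℝ (Fin (m + 3)))), ((P.card : ℝ) - 1) ^ 2
        ≤ 1100 * ((2 * t : ℕ) : ℝ) ^ 4 * (2 * (t : ℝ) + 1) ^ (2 * m) *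
          (((@Finset.erase _ i1 P p).image (fun q => dist p q)).card : ℝ) := by
      intro i1
      have hi : i1 = (fun a b => Classical.propDecidable (a = b)) := Subsingleton.elim _ _
      rw [hi]
      exact h1
    have hconst : 1100 * ((2 * t : ℕ) : ℝ) ^ 4 * (2 * (t : ℝ) + 1) ^ (2 * m) ≤ C * (t : ℝ) ^ (2 * m + 4) := by
      have e1 : (2 * (t : ℝ) + 1) ^ (2 * m) ≤ (3 * (t : ℝ)) ^ (2 * m) :=
        pow_le_pow_left₀ (by positivity) (by linarith) _
      have e2 : (3 * (t : ℝ)) ^ (2 * m) = 9 ^ m * (t : ℝ) ^ (2 * m) := by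
        rw [mul_pow, pow_mul]
        norm_num
      calc 1100 * ((2 * t : ℕ) : ℝ) ^ 4 * (2 * (t : ℝ) + 1) ^ (2 * m)
          ≤ 1100 * ((2 * t : ℕ) : ℝ) ^ 4 * (9 ^ m * (t : ℝ) ^ (2 * m)) := by
            rw [← e2]
            exact mul_le_mul_of_nonneg_left e1 (by positivity)
        _ = C * (t : ℝ) ^ (2 * m + 4) := by
            rw [hC]
            push_cast
            ring
    have h1' : ((P.card : ℝ) - 1) ^ 2
        ≤ C * (t : ℝ) ^ (2 * m + 4) * (((P.erase p).image (fun q => dist p q)).card : ℝ) :=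
      (key _).trans (mul_le_mul_of_nonneg_right hconst (by positivity))
    have h2 := density m C δ (P.card : ℝ) (t : ℝ) (((P.erase p).image (fun q => dist p q)).card : ℝ)
      hCpos hδ (by exact_mod_cast hcard) (by positivity) (by positivity) h1' hdens
    rw [div_mul_eq_mul_div, div_mul_eq_mul_div, div_le_iff₀ (by positivity)]
    linarith
  refine ⟨hpin, ?_⟩
  obtain ⟨p, hp⟩ : P.Nonempty := Finset.card_pos.mp (by omega)
  refine (hpin p hp).trans ?_
  have hsub : (P.erase p).image (fun q => dist p q) ⊆ P.offDiag.image (fun pq => dist pq.1 pq.2) := by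
    intro x hx
    obtain ⟨q, hq, rfl⟩ := Finset.mem_image.mp hx
    refine Finset.mem_image.mpr ⟨(p, q), ?_, rfl⟩
    rw [Finset.mem_offDiag]
    exact ⟨hp, Finset.mem_of_mem_erase hq, (Finset.ne_of_mem_erase hq).symm⟩
  exact_mod_cast Finset.card_le_card hsub

end Vale.Agent.Results.P054.AllLattices
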