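import Vale.Agent.Lib.P054.Lat.PinnedG

/-!
P054 (distinct distances in dimension three).  The conjectured bound `c n^(2/3)` holds, pinned at every point and with an
ABSOLUTE constant `c`, for all subsets of positive density of boxes in ARBITRARY lattices of `ℝ^3`:
if `u1, u2, u3` is any basis of `ℝ^3` and `P ⊆ {x u1 + y u2 + w u3 : x, y, w ∈ {1,...,t}}` has `n ≥ 2`, `n ≥ δ t^3` points, then every
point `p` of `P` is at `≥ c δ^(4/3) n^(2/3)` distinct distances from the other points of `P`, and so `|Δ(P)| ≥ c δ^(4/3) n^(2/3)`.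
Equivalently: the statement holds for all images of dense subsets of the cubic grid under invertible affine maps, uniformly in the map.
-/

namespace Vale.Agent.Results.P054.AllLatticesDim3

open Vale.Agent.Lib.P054

open Classical in
theorem result : ∃ c : ℝ, 0 < c ∧
    ∀ (u1 u2 u3 : EuclideanSpace ℝ (Fin 3)), LinearIndependent ℝ ![u1, u2, u3] →
    ∀ (t : ℕ) (δ : ℝ) (P : Finset (EuclideanSpace ℝ (Fin 3))), 0 < δ →
      (∀ q ∈ P, ∃ x y w : ℕ, (1 ≤ x ∧ x ≤ t) ∧ (1 ≤ y ∧ y ≤ t) ∧ (1 ≤ w ∧ w ≤ t) ∧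
        q = (x : ℝ) • u1 + (y : ℝ) • u2 + (w : ℝ) • u3) →
      2 ≤ P.card → δ * (t : ℝ) ^ 3 ≤ (P.card : ℝ) →
      (∀ p ∈ P, c * δ ^ ((4 : ℝ) / 3) * (P.card : ℝ) ^ ((2 : ℝ) / 3)
          ≤ (((P.erase p).image (fun q => dist p q)).card : ℝ)) ∧
      c * δ ^ ((4 : ℝ) / 3) * (P.card : ℝ) ^ ((2 : ℝ) / 3)
          ≤ ((P.offDiag.image (fun pq => dist pq.1 pq.2)).card : ℝ) := by
  set C : ℝ := 1100 * 2 ^ 4 with hC
  have hCpos : 0 < C := by positivity
  refine ⟨1 / (4 * C), by positivity, ?_⟩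
  intro u1 u2 u3 hu t δ P hδ hP hcard hdens
  have hpin : ∀ p ∈ P, 1 / (4 * C) * δ ^ ((4 : ℝ) / 3) * (P.card : ℝ) ^ ((2 : ℝ) / 3)
          ≤ (((P.erase p).image (fun q => dist p q)).card : ℝ) := by
    intro p hp
    have ht : 1 ≤ t := by
      obtain ⟨x, y, w, hx, -⟩ := hP p hp
      omega
    have h1 := pinned_G u1 u2 u3 hu t ht P hP p hp
    have h1' : ((P.card : ℝ) - 1) ^ 2
        ≤ C * (t : ℝ) ^ (2 * 0 + 4) * (((P.erase p).image (fun q => dist p q)).card : ℝ) := by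
      have e : C * (t : ℝ) ^ (2 * 0 + 4) = 1100 * ((2 * t : ℕ) : ℝ) ^ 4 := by
        rw [hC]
        push_cast
        rw [mul_pow]
        ring
      rw [e]
      have key : ∀ (i1 : DecidableEq (EuclideanSpace ℝ (Fin 3))), ((P.card : ℝ) - 1) ^ 2
          ≤ 1100 * ((2 * t : ℕ) : ℝ) ^ 4 *
            (((@Finset.erase _ i1 P p).image (fun q => dist p q)).card : ℝ) := by
        intro i1
        have hi : i1 = (fun a b => Classical.propDecidable (a = b)) := Subsingleton.elim _ _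
        rw [hi]
        exact h1
      exact key _
    have h2 := density 0 C δ (P.card : ℝ) (t : ℝ) (((P.erase p).image (fun q => dist p q)).card : ℝ)
      hCpos hδ (by exact_mod_cast hcard) (by positivity) (by positivity) h1' hdens
    have e1 : (2 - 2 / ((0 + 3 : ℕ) : ℝ)) = (4 : ℝ) / 3 := by push_cast; norm_num
    have e2 : (2 / ((0 + 3 : ℕ) : ℝ)) = (2 : ℝ) / 3 := by push_cast; norm_num
    rw [e1, e2] at h2
    rw [div_mul_eq_mul_div, div_mul_eq_mul_div, div_le_iff₀ (by positivity)]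
    linarith
  refine ⟨hpin, ?_⟩
  obtain ⟨p, hp⟩ : P.Nonempty := Finset.card_pos.mp (by omega)
  refine (hpin p hp).trans ?_
  have hsub : (P.erase p).image (fun q => dist p q) ⊆ P.offDiag.image (fun pq => dist pq.1 pq.2) := by
    intro x hx
    obtain ⟨q, hq, rfl⟩ := Finset.mem_image.mp hx
    refine Finset.mem_image.mpr ⟨(p, q), ?_, rfl⟩
    rw [Finset.mem_offDiag]
    exact ⟨hp, Finset.mem_of_mem_erase hq, (Finset.ne_of_mem_erase hq).symm⟩
  exact_mod_cast Finset.card_le_card hsub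

end Vale.Agent.Results.P054.AllLatticesDim3
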