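import Vale.Agent.Results.P054.DenseGridSubsets
import Vale.Agent.Results.P054.AllLatticesDim3

/-!
P054 (higher-dimensional distinct distances): the two special cases of the conjectured bound, stated together.
(1) every dimension `d ≥ 3`: subsets of positive density of the cubic grid;
(2) dimension three: subsets of positive density of boxes in arbitrary lattices, with an absolute constant.
-/

namespace Vale.Agent.Results.P054.AllResults

open Classical in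
theorem result :
    (∀ d : ℕ, 3 ≤ d → ∃ c : ℝ, 0 < c ∧
      ∀ (t : ℕ) (δ : ℝ) (P : Finset (EuclideanSpace ℝ (Fin d))), 0 < δ →
        (∀ q ∈ P, ∀ i, ∃ z : ℕ, 1 ≤ z ∧ z ≤ t ∧ q i = (z : ℝ)) →
        2 ≤ P.card → δ * (t : ℝ) ^ d ≤ (P.card : ℝ) →
        (∀ p ∈ P, c * δ ^ (2 - 2 / (d : ℝ)) * (P.card : ℝ) ^ (2 / (d : ℝ))
            ≤ (((P.erase p).image (fun q => dist p q)).card : ℝ)) ∧
        c * δ ^ (2 - 2 / (d : ℝ)) * (P.card : ℝ) ^ (2 / (d : ℝ))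
            ≤ ((P.offDiag.image (fun pq => dist pq.1 pq.2)).card : ℝ)) ∧
    (∃ c : ℝ, 0 < c ∧
      ∀ (u1 u2 u3 : EuclideanSpace ℝ (Fin 3)), LinearIndependent ℝ ![u1, u2, u3] →
      ∀ (t : ℕ) (δ : ℝ) (P : Finset (EuclideanSpace ℝ (Fin 3))), 0 < δ →
        (∀ q ∈ P, ∃ x y w : ℕ, (1 ≤ x ∧ x ≤ t) ∧ (1 ≤ y ∧ y ≤ t) ∧ (1 ≤ w ∧ w ≤ t) ∧
          q = (x : ℝ) • u1 + (y : ℝ) • u2 + (w : ℝ) • u3) →
        2 ≤ P.card → δ * (t : ℝ) ^ 3 ≤ (P.card : ℝ) →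
        (∀ p ∈ P, c * δ ^ ((4 : ℝ) / 3) * (P.card : ℝ) ^ ((2 : ℝ) / 3)
            ≤ (((P.erase p).image (fun q => dist p q)).card : ℝ)) ∧
        c * δ ^ ((4 : ℝ) / 3) * (P.card : ℝ) ^ ((2 : ℝ) / 3)
            ≤ ((P.offDiag.image (fun pq => dist pq.1 pq.2)).card : ℝ)) :=
  ⟨DenseGridSubsets.result, AllLatticesDim3.result⟩

end Vale.Agent.Results.P054.AllResults
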