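import Vale.Agent.Lib.P054.Pinned
import Vale.Agent.Lib.P054.Density

/-!
P054 (higher-dimensional distinct distances).  The conjectured bound `c_d n^(2/d)` holds, in every dimension
`d ≥ 3` and even pinned at every point, for all subsets of positive density of the cubic grid `{1,...,t}^d`
(the conjectured extremal configuration): if `P ⊆ {1,...,t}^d` has `n ≥ 2`, `n ≥ δ t^d` points, then every point `p` of `P`
is at `≥ c_d δ^(2-2/d) n^(2/d)` distinct distances from the other points of `P`; in particular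
`|Δ(P)| ≥ c_d δ^(2-2/d) n^(2/d)`.  The constant `c_d` depends on `d` only.
-/

namespace Vale.Agent.Results.P054.DenseGridSubsets

open Vale.Agent.Lib.P054

open Classical in
theorem result : ∀ d : ℕ, 3 ≤ d → ∃ c : ℝ, 0 < c ∧
    ∀ (t : ℕ) (δ : ℝ) (P : Finset (EuclideanSpace ℝ (Fin d))), 0 < δ →
      (∀ q ∈ P, ∀ i, ∃ z : ℕ, 1 ≤ z ∧ z ≤ t ∧ q i = (z : ℝ)) →
      2 ≤ P.card → δ * (t : ℝ) ^ d ≤ (P.card : ℝ) →
      (∀ p ∈ P, c * δ ^ (2 - 2 / (d : ℝ)) * (P.card : ℝ) ^ (2 / (d : ℝ))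
          ≤ (((P.erase p).image (fun q => dist p q)).card : ℝ)) ∧
      c * δ ^ (2 - 2 / (d : ℝ)) * (P.card : ℝ) ^ (2 / (d : ℝ))
          ≤ ((P.offDiag.image (fun pq => dist pq.1 pq.2)).card : ℝ) := by
  intro d hd
  obtain ⟨m, rfl⟩ : ∃ m, d = m + 3 := ⟨d - 3, by omega⟩
  set C : ℝ := 500 * 9 ^ m * 2 ^ (2 * m + 4) with hC
  have hCpos : 0 < C := by positivity
  refine ⟨1 / (4 * C), by positivity, ?_⟩
  intro t δ P hδ hP hcard hdens
  have hpin : ∀ p ∈ P, 1 / (4 * C) * δ ^ (2 - 2 / ((m + 3 : ℕ) : ℝ)) * (P.card : ℝ) ^ (2 / ((m + 3 : ℕ) : ℝ))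
          ≤ (((P.erase p).image (fun q => dist p q)).card : ℝ) := by
    intro p hp
    have ht : 1 ≤ t := by
      obtain ⟨z, hz1, hz2, -⟩ := hP p hp 0
      omega
    have h1 := pinned m t ht P hP p hp
    have h1' : ((P.card : ℝ) - 1) ^ 2
        ≤ C * (t : ℝ) ^ (2 * m + 4) * (((P.erase p).image (fun q => dist p q)).card : ℝ) := by
      refine h1.trans (le_of_eq ?_)
      rw [hC]
      push_cast
      rw [mul_pow]
      ring
    have h2 := density m C δ (P.card : ℝ) (t : ℝ) (((P.erase p).image (fun q => dist p q)).card : ℝ)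
      hCpos hδ (by exact_mod_cast hcard) (by positivity) (by positivity) h1' hdens
    rw [div_mul_eq_mul_div, div_mul_eq_mul_div, div_le_iff₀ (by positivity)]
    linarith
  refine ⟨hpin, ?_⟩
  obtain ⟨p, hp⟩ : P.Nonempty := Finset.card_pos.mp (by omega)
  refine (hpin p hp).trans ?_
  have hsub : (P.erase p).image (fun q => dist p q) ⊆ P.offDiag.image (fun pq => dist pq.1 pq.2) := by
    intro x hx
    obtain ⟨q, hq, rfl⟩ := Finset.mem_image.mp hx
    refine Finset.mem_image.mpr ⟨(p, q), ?_, rfl⟩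
    rw [Finset.mem_offDiag]
    exact ⟨hp, Finset.mem_of_mem_erase hq, (Finset.ne_of_mem_erase hq).symm⟩
  exact_mod_cast Finset.card_le_card hsub

end Vale.Agent.Results.P054.DenseGridSubsets
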